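import Vale.Agent.P205.Bdl.B10
import Vale.Agent.P205.H366.FlexMan
import Vale.Agent.P205.H599.Op

open scoped ContDiff Manifold
open Bundle

namespace Vale.Agent.Results.P205.CompactSurfacesFlex

universe u

/-- (1) Every closed smooth Riemannian surface has a smooth isometric immersion into `ℝ⁴`; (2) it
has infinitely many of them into every ball of `ℝ⁴`, pairwise nowhere locally congruent; (3) the
same for every Riemannian metric on an open submanifold `U` of a closed surface, on a neighbourhood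
of any compact `K ⊆ U` (surfaces with boundary). -/
theorem result {E : Type} [NormedAddCommGroup E] [NormedSpace ℝ E] (hE : Module.finrank ℝ E = 2)
    {M : Type u} [TopologicalSpace M] [T2Space M] [CompactSpace M] [ChartedSpace E M]
    [IsManifold 𝓘(ℝ, E) ∞ M] :
    (∀ g : ContMDiffRiemannianMetric 𝓘(ℝ, E) ∞ E (fun x : M => TangentSpace 𝓘(ℝ, E) x),
      ∃ X : Fin 4 → M → ℝ, (∀ i, ContMDiff 𝓘(ℝ, E) 𝓘(ℝ) ∞ (X i)) ∧
        ∀ (m : M) (v w : TangentSpace 𝓘(ℝ, E) m),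
          ∑ i, mvfderiv 𝓘(ℝ, E) (X i) m v * mvfderiv 𝓘(ℝ, E) (X i) m w = g.inner m v w) ∧
    (∀ (g : ContMDiffRiemannianMetric 𝓘(ℝ, E) ∞ E (fun x : M => TangentSpace 𝓘(ℝ, E) x)) (ρ : ℝ),
      0 < ρ → ∃ X : ℕ → Fin 4 → M → ℝ, (∀ n i, ContMDiff 𝓘(ℝ, E) 𝓘(ℝ) ∞ (X n i)) ∧
        (∀ n (m : M) (v w : TangentSpace 𝓘(ℝ, E) m),
          ∑ i, mvfderiv 𝓘(ℝ, E) (X n i) m v * mvfderiv 𝓘(ℝ, E) (X n i) m w = g.inner m v w) ∧
        (∀ n m, ∑ i, X n i m ^ 2 ≤ ρ ^ 2) ∧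
        ∀ n n', n ≠ n' → ∀ O : Set M, IsOpen O → O.Nonempty →
          ∀ A : EuclideanSpace ℝ (Fin 4) → EuclideanSpace ℝ (Fin 4), Isometry A →
            ¬ ∀ m ∈ O, WithLp.toLp 2 (fun i => X n i m) = A (WithLp.toLp 2 fun i => X n' i m)) ∧
    ∀ (U : TopologicalSpace.Opens M)
      (g : ContMDiffRiemannianMetric 𝓘(ℝ, E) ∞ E (fun x : U => TangentSpace 𝓘(ℝ, E) x))
      (K : Set U), IsCompact K → ∀ ρ : ℝ, 0 < ρ →
      ∃ (V : Set U) (X : ℕ → Fin 4 → U → ℝ), IsOpen V ∧ K ⊆ V ∧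
        (∀ n i, ContMDiff 𝓘(ℝ, E) 𝓘(ℝ) ∞ (X n i)) ∧
        (∀ n, ∀ m ∈ V, ∀ v w : TangentSpace 𝓘(ℝ, E) m,
          ∑ i, mvfderiv 𝓘(ℝ, E) (X n i) m v * mvfderiv 𝓘(ℝ, E) (X n i) m w = g.inner m v w) ∧
        (∀ n m, ∑ i, X n i m ^ 2 ≤ ρ ^ 2) ∧
        ∀ n n', n ≠ n' → ∀ O : Set U, IsOpen O → O.Nonempty →
          ∀ A : EuclideanSpace ℝ (Fin 4) → EuclideanSpace ℝ (Fin 4), Isometry A →
            ¬ ∀ m ∈ O, WithLp.toLp 2 (fun i => X n i m) = A (WithLp.toLp 2 fun i => X n' i m) := by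
  have hfin : FiniteDimensional ℝ E :=
    FiniteDimensional.of_finrank_pos (by rw [hE]; exact two_pos)
  refine ⟨fun g => Vale.Agent.P205.TW.full hE g,
    fun g ρ hρ => Vale.Agent.P205.H366.flexible hE g hρ, ?_⟩
  intro U g K hK ρ hρ
  obtain ⟨g', V, hV, hKV, hVU, hgg⟩ := Vale.Agent.P205.H599.extend U.isOpen
    (Vale.Agent.P205.H599.pf U g)
    (fun x hx v w => by
      have h1 := Vale.Agent.P205.H599.pf_val U g ⟨x, hx⟩
      exact (h1 v w).trans ((g.symm ⟨x, hx⟩ v w).trans (h1 w v).symm))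
    (fun x hx v hv => by
      have h1 := Vale.Agent.P205.H599.pf_val U g ⟨x, hx⟩
      exact (g.pos ⟨x, hx⟩ v hv).trans_eq (h1 v v).symm)
    (Vale.Agent.P205.H599.pf_smooth U g) (hK.image continuous_subtype_val) (by
      rintro _ ⟨x, -, rfl⟩
      exact x.2)
  obtain ⟨X, hX, h, hb, hc⟩ := Vale.Agent.P205.H366.flexible hE g' hρ
  refine ⟨Subtype.val ⁻¹' V, fun n i z => X n i z, hV.preimage continuous_subtype_val,
    fun x hx => hKV ⟨x, hx, rfl⟩, fun n i => (hX n i).comp contMDiff_subtype_val,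
    fun n m hm v w => ?_, fun n m => hb n m, fun n n' hn O hO hO' A hA hOA => ?_⟩
  · have h1 : ∀ u i, mvfderiv 𝓘(ℝ, E) (fun z : U => X n i z) m u =
        mvfderiv 𝓘(ℝ, E) (X n i) (m : M) u := fun u i =>
      Vale.Agent.P205.H599.mvf_val U (hX n i) m u
    have h2 := h n (m : M) v w
    rw [hgg (m : M) hm] at h2
    refine Eq.trans (Finset.sum_congr rfl fun i _ => ?_)
      (h2.trans (Vale.Agent.P205.H599.pf_val U g m v w))
    rw [h1, h1]
  · refine hc n n' hn (Subtype.val '' O) (U.isOpen.isOpenMap_subtype_val _ hO) (hO'.image _) A hA ?_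
    rintro _ ⟨m, hm, rfl⟩
    exact hOA m hm

end Vale.Agent.Results.P205.CompactSurfacesFlex
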