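import Vale.Agent.P205.H308.Strict

open scoped ContDiff Manifold
open Bundle

namespace Vale.Agent.Results.P205.ShortImmersionDensity

universe u

/-- (1) Every closed smooth Riemannian surface has a smooth isometric immersion into `ℝ⁴`.
(2) If `F : M → ℝ⁴` is a smooth immersion with a nowhere vanishing smooth normal field `ξ` which is
strictly short for `g`, then every uniform neighbourhood of `F` contains infinitely many smooth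
isometric immersions of `(M, g)` into `ℝ⁴`, pairwise nowhere locally congruent. -/
theorem result {E : Type} [NormedAddCommGroup E] [NormedSpace ℝ E] (hE : Module.finrank ℝ E = 2)
    {M : Type u} [TopologicalSpace M] [T2Space M] [CompactSpace M] [ChartedSpace E M]
    [IsManifold 𝓘(ℝ, E) ∞ M] :
    (∀ g : ContMDiffRiemannianMetric 𝓘(ℝ, E) ∞ E (fun x : M => TangentSpace 𝓘(ℝ, E) x),
      ∃ X : Fin 4 → M → ℝ, (∀ i, ContMDiff 𝓘(ℝ, E) 𝓘(ℝ) ∞ (X i)) ∧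
        ∀ (m : M) (v w : TangentSpace 𝓘(ℝ, E) m),
          ∑ i, mvfderiv 𝓘(ℝ, E) (X i) m v * mvfderiv 𝓘(ℝ, E) (X i) m w = g.inner m v w) ∧
    ∀ (F ξ : Fin 4 → M → ℝ),
      (∀ i, ContMDiff 𝓘(ℝ, E) 𝓘(ℝ) ∞ (F i)) → (∀ i, ContMDiff 𝓘(ℝ, E) 𝓘(ℝ) ∞ (ξ i)) →
      (∀ (m : M) (v : TangentSpace 𝓘(ℝ, E) m), v ≠ 0 → ∃ i, mvfderiv 𝓘(ℝ, E) (F i) m v ≠ 0) →
      (∀ m, ∃ i, ξ i m ≠ 0) →
      (∀ (m : M) (v : TangentSpace 𝓘(ℝ, E) m), ∑ i, ξ i m * mvfderiv 𝓘(ℝ, E) (F i) m v = 0) →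
      ∀ g : ContMDiffRiemannianMetric 𝓘(ℝ, E) ∞ E (fun x : M => TangentSpace 𝓘(ℝ, E) x),
      (∀ (m : M) (v : TangentSpace 𝓘(ℝ, E) m), v ≠ 0 →
        ∑ i, mvfderiv 𝓘(ℝ, E) (F i) m v ^ 2 < g.inner m v v) →
      ∀ ε : ℝ, 0 < ε → ∃ X : ℕ → Fin 4 → M → ℝ, (∀ n i, ContMDiff 𝓘(ℝ, E) 𝓘(ℝ) ∞ (X n i)) ∧
        (∀ n (m : M) (v w : TangentSpace 𝓘(ℝ, E) m),
          ∑ i, mvfderiv 𝓘(ℝ, E) (X n i) m v * mvfderiv 𝓘(ℝ, E) (X n i) m w = g.inner m v w) ∧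
        (∀ n m, ∑ i, (X n i m - F i m) ^ 2 ≤ ε ^ 2) ∧
        ∀ n n', n ≠ n' → ∀ O : Set M, IsOpen O → O.Nonempty →
          ∀ A : EuclideanSpace ℝ (Fin 4) → EuclideanSpace ℝ (Fin 4), Isometry A →
            ¬ ∀ m ∈ O, WithLp.toLp 2 (fun i => X n i m) = A (WithLp.toLp 2 fun i => X n' i m) :=
  ⟨fun g => Vale.Agent.P205.TW.full hE g,
    fun F ξ hF hξ himm hξ0 hperp g hg _ hε =>
      Vale.Agent.P205.H308.strict hE F ξ hF hξ himm hξ0 hperp g hg hε⟩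

end Vale.Agent.Results.P205.ShortImmersionDensity
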